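import Vale.Agent.P126.Lattice.Family

/-!
A cover of `K` by translates of `2 L` from a cover of the polar of `L` (P126).
-/

open Finset Real

namespace Vale.Agent.P126.Lattice

open Vale.Agent.P126.Uncond

variable {ι : Type*} [Fintype ι] [LinearOrder ι] {K L : Set (ι → ℝ)} {C : Finset (ι → ℝ)}

/-- A cover of the polar of `L` gives a cover of `K` at a bounded power of its size. -/
theorem exists_cover_two (hK : Solid K) (hL : IsLatticeBody L) (hC : IsCellCover K L C) :
    ∃ D : Finset (ι → ℝ), log (D.card : ℝ) ≤ 43 * log (C.card : ℝ) ∧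
      ∀ x ∈ K, ∃ d ∈ D, (2 : ℝ)⁻¹ • (x - d) ∈ L := by
  classical
  set L₀ := log (C.card : ℝ) with hL₀def
  have hL₀ : 0 ≤ L₀ := hC.log_nonneg
  obtain ⟨F, hF, hFcard, hcov⟩ := exists_family hK hL hC
  choose v hvL hv0 hvT hvpol using fun T : Finset ι => exists_uniform_profile hL T
  set E : ℕ := ⌈exp (7 * L₀)⌉₊
  set G : Finset ι → Finset (ι → ℤ) := fun T =>
    (Fintype.piFinset fun i => if i ∈ T then Icc (-(E : ℤ)) E else {0}).filter
      fun k => ∑ i ∈ T, log (2 * |(k i : ℝ)| + 1) ≤ 7 * L₀
  refine ⟨F.biUnion fun T => (G T).image fun k i => v T i * (k i : ℝ), ?_, fun x hx => ?_⟩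
  · have hG : ∀ T ∈ F, ((G T).card : ℝ) ≤ exp (18 * L₀) := by
      intro T hT
      refine (card_log_tuples_le T E (7 * L₀)).trans ?_
      have h2 : (3 / 2 : ℝ) ^ T.card ≤ exp (T.card * (1 / 2)) := by
        rw [exp_nat_mul]
        refine pow_le_pow_left₀ (by norm_num) ?_ _
        linarith [add_one_le_exp (1 / 2 : ℝ)]
      refine (mul_le_mul_of_nonneg_left h2 (exp_pos _).le).trans ?_
      rw [← exp_add, exp_le_exp]
      linarith [hFcard T hT]
    set D := F.biUnion fun T => (G T).image fun k i => v T i * (k i : ℝ)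
    have hcard : (D.card : ℝ) ≤ (F.card : ℝ) * exp (18 * L₀) := by
      refine le_trans (Nat.cast_le.2 card_biUnion_le) ?_
      rw [Nat.cast_sum, ← nsmul_eq_mul]
      exact sum_le_card_nsmul _ _ _ fun T hT =>
        le_trans (Nat.cast_le.2 card_image_le) (hG T hT)
    rcases Nat.eq_zero_or_pos D.card with h0 | h0
    · rw [h0, Nat.cast_zero, log_zero]
      positivity
    · have hFpos : (0 : ℝ) < F.card := by
        obtain ⟨d, hd⟩ := card_pos.1 h0
        obtain ⟨T, hT, -⟩ := mem_biUnion.1 hd
        exact_mod_cast card_pos.2 ⟨T, hT⟩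
      have h := log_le_log (by exact_mod_cast h0) hcard
      rw [log_mul hFpos.ne' (exp_pos _).ne', log_exp] at h
      linarith
  · obtain ⟨T, hT, hoff⟩ := hcov x hx
    set T' := T.filter fun i => v T i / 2 < |x i| with hT'
    set k : ι → ℤ := fun i => if i ∈ T' then round (x i / v T i) else 0 with hk
    have hkabs : ∀ i ∈ T', |(k i : ℝ)| ≤ ⌈|x i| / v T i⌉₊ := fun i hi => by
      have hvi := hvT T i (mem_filter.1 hi).1
      have h1 := abs_le.1 (abs_sub_round (x i / v T i))
      have h2 := Nat.le_ceil (|x i| / v T i)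
      have h3 : |x i / v T i| = |x i| / v T i := by rw [abs_div, abs_of_pos hvi]
      have h4 := le_abs_self (x i / v T i)
      have h5 := neg_abs_le (x i / v T i)
      simp only [hk, hi, if_true]
      set m := round (x i / v T i)
      set N := ⌈|x i| / v T i⌉₊
      have hu : (m : ℝ) < ((N : ℤ) + 1 : ℤ) := by push_cast; linarith [h1.1, h1.2]
      have hl : (((-(N : ℤ)) - 1 : ℤ) : ℝ) < m := by push_cast; linarith [h1.1, h1.2]
      rw [Int.cast_lt] at hu hl
      rw [← Int.cast_abs, ← Int.cast_natCast N, Int.cast_le, abs_le]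
      omega
    have hsum : ∑ i ∈ T, log (2 * |(k i : ℝ)| + 1) ≤ 7 * L₀ := by
      have h1 := sum_log_grid_le hK hC hx T (hvT T) (hvpol T)
      have h2 : ∑ i ∈ T, log (2 * |(k i : ℝ)| + 1) ≤
          ∑ i ∈ T', log (2 * (⌈|x i| / v T i⌉₊ : ℝ) + 1) := by
        rw [← sum_subset (filter_subset _ T) fun i _ hi => by rw [show k i = 0 from if_neg hi]; simp]
        exact sum_le_sum fun i hi => log_le_log (by positivity) (by linarith [hkabs i hi])
      have h3 : (T.card : ℝ) * log 2 ≤ 8 * L₀ * 0.6932 := mul_le_mul (hFcard T hT)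
        (by linarith [Real.log_two_lt_d9]) (log_nonneg one_le_two) (by positivity)
      linarith
    refine ⟨_, mem_biUnion.2 ⟨T, hT, mem_image.2 ⟨k, mem_filter.2
      ⟨Fintype.mem_piFinset.2 fun i => ?_, hsum⟩, rfl⟩⟩, ?_⟩
    · by_cases hi : i ∈ T
      · rw [if_pos hi, mem_Icc]
        have h1 : log (2 * |(k i : ℝ)| + 1) ≤ 7 * L₀ :=
          (single_le_sum (f := fun j => log (2 * |(k j : ℝ)| + 1))
            (fun j _ => log_nonneg (by linarith [abs_nonneg (k j : ℝ)])) hi).trans hsum
        rw [log_le_iff_le_exp (by positivity)] at h1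
        have h2 : ((k i).natAbs : ℝ) ≤ E := by
          rw [Nat.cast_natAbs, Int.cast_abs]
          linarith [Nat.le_ceil (exp (7 * L₀)), abs_nonneg (k i : ℝ)]
        have h3 : (k i).natAbs ≤ E := by exact_mod_cast h2
        omega
      · simp [hk, hT', hi]
    · have habs : ∀ l ∈ L, (fun i => |l i|) ∈ L := fun l hl => hL.solid l hl _ fun i => by simp
      refine hL.solid _ (hL.convex (habs _ (hvL T)) (habs _ hoff) (show (0 : ℝ) ≤ 1 / 2 by norm_num)
        (show (0 : ℝ) ≤ 1 / 2 by norm_num) (by norm_num)) _ fun i => ?_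
      simp only [Pi.smul_apply, Pi.sub_apply, Pi.add_apply, smul_eq_mul, abs_mul, off]
      rw [abs_of_nonneg (show (0 : ℝ) ≤ 1 / 2 * |v T i| + 1 / 2 * (|6 / 5| *
        |if i ∈ T then 0 else x i|) by positivity), abs_of_nonneg (hv0 T i)]
      norm_num
      by_cases hi : i ∈ T
      · simp only [hi, if_true, abs_zero, mul_zero, add_zero]
        have hvi := hvT T i hi
        suffices |x i - v T i * k i| ≤ v T i / 2 by linarith
        by_cases hi' : i ∈ T'
        · simp only [hk, hi', if_true]
          rw [show x i - v T i * (round (x i / v T i) : ℝ) =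
            v T i * (x i / v T i - round (x i / v T i)) by field_simp, abs_mul, abs_of_pos hvi]
          exact (mul_le_mul_of_nonneg_left (abs_sub_round _) hvi.le).trans_eq (by ring)
        · have h : ¬ v T i / 2 < |x i| := fun h => hi' (mem_filter.2 ⟨hi, h⟩)
          simp only [hk, hi', if_false, Int.cast_zero, mul_zero, sub_zero]
          linarith
      · simp only [hi, if_false]
        have hk0 : k i = 0 := by simp [hk, hT', hi]
        rw [hk0, Int.cast_zero, mul_zero, sub_zero]
        linarith [abs_nonneg (x i), hv0 T i]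

end Vale.Agent.P126.Lattice
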