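import Vale.Agent.P126.Lattice.Pack
import Vale.Agent.P126.Uncond.Encode

/-!
A small family of coordinate sets outside which the elements of `K` are small for `L` (P126).
-/

open Finset Real

namespace Vale.Agent.P126.Lattice

open Vale.Agent.P126.Uncond

variable {ι : Type*} [Fintype ι] [LinearOrder ι] {K L : Set (ι → ℝ)} {C : Finset (ι → ℝ)}

/-- The coordinates of `x` outside `T`. -/
def off (x : ι → ℝ) (T : Finset ι) : ι → ℝ := fun i => if i ∈ T then 0 else x i

/-- The positions kept after erasing `P`, as a tuple. -/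
noncomputable def erasePos (V : ℕ) (P : Finset (Fin V)) (T : Finset ι) (t : Fin V) : WithTop ι :=
  if t ∈ P then ⊤ else encode V T t

/-- The part of `x` erased by `P`. -/
noncomputable def erased (V : ℕ) (x : ι → ℝ) (T : Finset ι) (P : Finset (Fin V)) : ι → ℝ :=
  fun i => if ∃ t ∈ P, encode V T t = (i : WithTop ι) then x i else 0

omit [Fintype ι] in
/-- Two sets with the same kept tuple cover each other. -/
theorem off_mem_of_erasePos_eq (hL : IsLatticeBody L) {V : ℕ} {P : Finset (Fin V)} {T T' : Finset ι}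
    (hT : T.card ≤ V) {x : ι → ℝ} (hoff : (3 : ℝ) • off x T ∈ L)
    (hP : (2 : ℝ) • erased V x T P ∈ L) (he : erasePos V P T = erasePos V P T') :
    (6 / 5 : ℝ) • off x T' ∈ L := by
  have habs : ∀ l ∈ L, (fun i => |l i|) ∈ L := fun l hl => hL.solid l hl _ fun i => by simp
  refine hL.solid _ (hL.convex (habs _ hoff) (habs _ hP) (show (0 : ℝ) ≤ 2 / 5 by norm_num)
    (show (0 : ℝ) ≤ 3 / 5 by norm_num) (by norm_num)) _ fun i => ?_
  simp only [Pi.smul_apply, Pi.add_apply, smul_eq_mul, abs_mul, off, erased]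
  rw [abs_of_nonneg (show (0 : ℝ) ≤ 2 / 5 * (|3| * |if i ∈ T then 0 else x i|) +
    3 / 5 * (|2| * |if ∃ t ∈ P, encode V T t = (i : WithTop ι) then x i else 0|) by positivity)]
  norm_num
  by_cases hi' : i ∈ T'
  · simp only [hi', if_true, abs_zero, mul_zero]
    positivity
  simp only [hi', if_false]
  by_cases hi : i ∈ T
  · have : ∃ t ∈ P, encode V T t = (i : WithTop ι) := by
      obtain ⟨t, -, ht⟩ := exists_encode hT hi
      refine ⟨t, by_contra fun htP => ?_, ht⟩
      have h := congrFun he t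
      simp only [erasePos, htP, if_false, ht] at h
      exact hi' (encode_mem h.symm)
    simp only [hi, this, if_true, abs_zero]
    linarith [abs_nonneg (x i)]
  · simp only [hi, if_false]
    have : 0 ≤ |if ∃ t ∈ P, encode V T t = (i : WithTop ι) then x i else 0| := abs_nonneg _
    linarith

omit [LinearOrder ι] in
/-- The minimax step: if every element of `L` has a small value on one of the functionals, some
convex combination of the functionals is small on all of `L`. -/
theorem exists_weights {α : Type*} [Fintype α] (hconv : Convex ℝ L) (hne : L.Nonempty)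
    (g : α → ι → ℝ) {s : ℝ} (h : ∀ l ∈ L, ∃ a, ∑ i, g a i * l i ≤ s) :
    ∃ w : α → ℝ, (∀ a, 0 ≤ w a) ∧ 0 < ∑ a, w a ∧
      ∀ l ∈ L, ∑ a, w a * ∑ i, g a i * l i ≤ s * ∑ a, w a := by
  classical
  set U : Set (α → ℝ) := (fun l a => ∑ i, g a i * l i - s) '' L
  have hU : Convex ℝ U := by
    rintro _ ⟨l, hl, rfl⟩ _ ⟨m, hm, rfl⟩ p q hp hq hpq
    refine ⟨p • l + q • m, hconv hl hm hp hq hpq, funext fun a => ?_⟩
    simp only [Pi.add_apply, Pi.smul_apply, smul_eq_mul, mul_add, sum_add_distrib, mul_sub,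
      mul_sum]
    have e : s = p * s + q * s := by rw [← add_mul, hpq, one_mul]
    simp only [mul_left_comm _ p, mul_left_comm _ q]
    linarith
  set O : Set (α → ℝ) := Set.pi Set.univ fun _ => Set.Ioi 0
  have hdisj : Disjoint O U := Set.disjoint_left.2 fun z hz hzU => by
    obtain ⟨l, hl, rfl⟩ := hzU
    obtain ⟨a, ha⟩ := h l hl
    have := hz a (Set.mem_univ a)
    simp only [Set.mem_Ioi] at this
    linarith
  obtain ⟨f, u, hfO, hfU⟩ := geometric_hahn_banach_open (convex_pi fun _ _ => convex_Ioi 0)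
    (isOpen_set_pi Set.finite_univ fun _ _ => isOpen_Ioi) hU hdisj
  set c : α → ℝ := fun a => f (Pi.single a 1)
  have hf : ∀ z : α → ℝ, f z = ∑ a, c a * z a := fun z => by
    conv_lhs => rw [show z = ∑ a, z a • Pi.single a (1 : ℝ) by ext b; simp [Pi.single_apply]]
    simp [c, mul_comm]
  have hO : ∀ z : α → ℝ, (∀ a, 0 < z a) → ∀ t : ℝ, 0 < t → t * f z < u := fun z hz t ht => by
    have := hfO (t • z) fun a _ => mul_pos ht (hz a)
    simpa using this
  have hu : 0 ≤ u := by
    by_contra hu
    set e := f (fun _ => (1 : ℝ))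
    have h1 := hO (fun _ => 1) (fun _ => one_pos) (-u / (|e| + 1))
      (div_pos (by linarith) (by positivity))
    have h2 : -u / (|e| + 1) * |e| ≤ -u := by
      rw [div_mul_eq_mul_div, div_le_iff₀ (by positivity)]
      nlinarith [abs_nonneg e]
    have h3 := mul_le_mul_of_nonneg_left (neg_abs_le e)
      (div_nonneg (show 0 ≤ -u by linarith) (show 0 ≤ |e| + 1 by positivity))
    linarith
  have hc : ∀ a, c a ≤ 0 := fun a => by
    by_contra hca
    have hpos := not_le.1 hca
    set e := ∑ b, c b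
    set ε := c a / (2 * (|e| + 1))
    have hε : 0 < ε := by positivity
    have h2 : 0 < f (fun b => (Pi.single a 1 : α → ℝ) b + ε) := by
      rw [hf]
      simp only [mul_add, sum_add_distrib, ← sum_mul, Pi.single_apply, mul_ite, mul_one, mul_zero,
        sum_ite_eq', mem_univ, if_true]
      have h3 : e * ε ≥ -(c a / 2) := by
        have h4 : |e| * ε ≤ c a / 2 := by
          simp only [ε]
          rw [mul_div_assoc', div_le_div_iff₀ (by positivity) two_pos]
          nlinarith [abs_nonneg e]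
        linarith [mul_le_mul_of_nonneg_right (neg_abs_le e) hε.le]
      linarith
    have h1 := hO (fun b => (Pi.single a 1 : α → ℝ) b + ε) (fun b => by
      simp only [Pi.single_apply]; split_ifs <;> linarith)
      ((u + 1) / f (fun b => (Pi.single a 1 : α → ℝ) b + ε)) (div_pos (by linarith) h2)
    rw [div_mul_cancel₀ _ h2.ne'] at h1
    linarith
  have hval : ∀ l ∈ L, 0 ≤ ∑ a, c a * (∑ i, g a i * l i - s) := fun l hl => by
    rw [← hf]
    exact hu.trans (hfU _ (Set.mem_image_of_mem _ hl))
  refine ⟨fun a => -c a, fun a => neg_nonneg.2 (hc a), ?_, fun l hl => ?_⟩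
  · refine lt_of_le_of_ne (sum_nonneg fun a _ => neg_nonneg.2 (hc a)) fun e => ?_
    have hc0 : ∀ a, c a = 0 := fun a => neg_eq_zero.1
      ((sum_eq_zero_iff_of_nonneg fun b _ => neg_nonneg.2 (hc b)).1 e.symm a (mem_univ a))
    obtain ⟨l, hl⟩ := hne
    have h1 := hfO (fun _ => 1) fun a _ => Set.mem_Ioi.2 one_pos
    have h2 := hfU _ (Set.mem_image_of_mem _ hl)
    simp only [hf, hc0, zero_mul, sum_const_zero] at h1 h2
    linarith
  · have h2 := hval l hl
    simp only [mul_sub, sum_sub_distrib, ← sum_mul] at h2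
    simp only [neg_mul, sum_neg_distrib, mul_neg]
    linarith

/-- A family of at most `card C ^ 25` coordinate sets serves all of `K`. -/
theorem exists_family (hK : Solid K) (hL : IsLatticeBody L) (hC : IsCellCover K L C) :
    ∃ F : Finset (Finset ι), log (F.card : ℝ) ≤ 25 * log (C.card : ℝ) ∧
      (∀ T ∈ F, (T.card : ℝ) ≤ 8 * log (C.card : ℝ)) ∧
      ∀ x ∈ K, ∃ T ∈ F, (6 / 5 : ℝ) • off x T ∈ L := by
  classical
  set L₀ := log (C.card : ℝ) with hL₀def
  have hL₀ : 0 ≤ L₀ := hC.log_nonneg
  set V : ℕ := ⌊8 * L₀⌋₊ with hV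
  have hVL : (V : ℝ) ≤ 8 * L₀ := Nat.floor_le (by positivity)
  set Valid : Finset (Finset ι) → (Finset ι → ι → ℝ) → Prop := fun F w =>
    (∀ T ∈ F, w T ∈ K ∧ T.card ≤ V ∧ (3 : ℝ) • off (w T) T ∈ L ∧ ∀ i ∈ T, w T i ≠ 0) ∧
      ∀ T ∈ F, ∀ T' ∈ F, (6 / 5 : ℝ) • off (w T) T' ∈ L → (6 / 5 : ℝ) • off (w T') T ∈ L → T = T'
  obtain ⟨F, hF, hmax⟩ := exists_max_image (univ.filter fun F => ∃ w, Valid F w) card
    ⟨∅, mem_filter.2 ⟨mem_univ _, fun _ => 0, by simp [Valid]⟩⟩
  obtain ⟨-, x, hx, hsep⟩ := mem_filter.1 hF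
  refine ⟨F, ?_, fun T hT => le_trans (Nat.cast_le.2 (hx T hT).2.1) hVL, fun z hz => ?_⟩
  swap
  · -- maximality gives the covering
    obtain ⟨v, hv, q, hv0, hq, hsupp, hsmall, hpol⟩ := exists_profile hL z
    have hσ := sum_weight_le hK hC hz hv0 hq hsupp hpol
    set T := univ.filter fun i => 1 / 2 < q i with hTdef
    have hTV : T.card ≤ V := Nat.le_floor (by
      have h1 : (T.card : ℝ) * (1 / 2) ≤ ∑ i, q i := by
        rw [← nsmul_eq_mul]
        exact (card_nsmul_le_sum _ _ _ fun i hi => (mem_filter.1 hi).2.le).trans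
          (sum_le_sum_of_subset_of_nonneg (subset_univ _) fun i _ _ => (hq i).1)
      linarith)
    have hT0 : ∀ i ∈ T, z i ≠ 0 := fun i hi h0 => by
      have hqi : 1 / 2 < q i := (mem_filter.1 hi).2
      have := hsupp i (by linarith : q i > 0).ne'
      rw [h0, abs_zero, mul_zero] at this
      linarith
    have hoff : (3 : ℝ) • off z T ∈ L := hL.solid v hv _ fun i => by
      simp only [Pi.smul_apply, smul_eq_mul, abs_mul, off]
      split_ifs with hi
      · simp
      · have := hsmall i (not_lt.1 fun h => hi (mem_filter.2 ⟨mem_univ _, h⟩))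
        rw [abs_of_pos (show (0 : ℝ) < 3 by norm_num), abs_of_nonneg (hv0 i)]
        linarith
    have hself : (6 / 5 : ℝ) • off z T ∈ L := hL.solid _ hoff _ fun i => by
      simp only [Pi.smul_apply, smul_eq_mul, abs_mul]
      exact mul_le_mul_of_nonneg_right (by norm_num) (abs_nonneg _)
    by_contra hno
    push Not at hno
    have hTF : T ∉ F := fun h => hno T h hself
    have hval : Valid (insert T F) (Function.update x T z) := by
      refine ⟨fun S hS => ?_, fun S hS S' hS' h1 h2 => ?_⟩
      · rcases eq_or_ne S T with rfl | hne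
        · simp only [Function.update_self]
          exact ⟨hz, hTV, hoff, hT0⟩
        · rw [Function.update_of_ne hne]
          exact hx S ((mem_insert.1 hS).resolve_left hne)
      · rcases eq_or_ne S T with rfl | hne <;> rcases eq_or_ne S' T with rfl | hne'
        · rfl
        · rw [Function.update_self] at h1
          exact absurd h1 (hno S' ((mem_insert.1 hS').resolve_left hne'))
        · rw [Function.update_self] at h2
          exact absurd h2 (hno S ((mem_insert.1 hS).resolve_left hne))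
        · rw [Function.update_of_ne hne] at h1
          rw [Function.update_of_ne hne'] at h2
          exact hsep S ((mem_insert.1 hS).resolve_left hne) S'
            ((mem_insert.1 hS').resolve_left hne') h1 h2
    have := hmax (insert T F) (mem_filter.2 ⟨mem_univ _, _, hval⟩)
    rw [card_insert_of_notMem hTF] at this
    omega
  -- the size of the family
  set Λ := log (F.card : ℝ) with hΛdef
  rcases le_or_gt Λ 0 with hΛ | hΛ
  · linarith
  set legal : Finset (Fin V) → Finset ι → Prop := fun P T =>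
    (2 : ℝ) • erased V (x T) T P ∈ L with hlegal
  set X : Finset (Fin V) → Finset (Fin V → WithTop ι) := fun P =>
    (F.filter (legal P)).image (erasePos V P) with hX
  have hinj : ∀ P, Set.InjOn (erasePos (ι := ι) V P) ↑(F.filter (legal P)) := by
    intro P T hT T' hT' e
    obtain ⟨hT, hTP⟩ := mem_filter.1 hT
    obtain ⟨hT', hTP'⟩ := mem_filter.1 hT'
    exact hsep T hT T' hT' (off_mem_of_erasePos_eq hL (hx T hT).2.1 (hx T hT).2.2.1 hTP e)
      (off_mem_of_erasePos_eq hL (hx T' hT').2.1 (hx T' hT').2.2.1 hTP' e.symm)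
  choose ell hell0 hellsum hKraft using fun P => exists_surprisal (X P)
  have htot : ∀ P, ∀ T ∈ F, legal P T → ∑ t, ell P (erasePos V P T) t ≤ Λ := fun P T hT hP => by
    have hm : erasePos V P T ∈ X P := mem_image_of_mem _ (mem_filter.2 ⟨hT, hP⟩)
    rw [hellsum P _ hm]
    refine log_le_log (by exact_mod_cast card_pos.2 ⟨_, hm⟩) (Nat.cast_le.2 ?_)
    exact card_image_le.trans (card_filter_le _ _)
  set fib : Finset (Fin V) → Finset ι → ι → Finset (Fin V) := fun P T i =>
    univ.filter fun t => t ∉ P ∧ encode V T t = (i : WithTop ι) with hfib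
  set a : Finset (Fin V) → Finset ι → Fin V → ℝ := fun P T t => ell P (erasePos V P T) t
  have ha : ∀ P, ∀ T ∈ F, legal P T → ∀ t, 0 ≤ a P T t := fun P T hT hP =>
    hell0 P _ (mem_image_of_mem _ (mem_filter.2 ⟨hT, hP⟩))
  have hdisj : ∀ P T (B : Finset ι), Set.PairwiseDisjoint ↑B (fib P T) := fun P T B i _ j _ hij => by
    simp only [Function.onFun, disjoint_left, hfib, mem_filter]
    intro t h1 h2
    exact hij (WithTop.coe_inj.1 (h1.2.2.symm.trans h2.2.2))
  -- weights on the legal masks giving an element of the polar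
  have hbal : ∀ T ∈ F, ∃ y : ι → ℝ, y ∈ Pol L ∧ (∀ i, i ∉ T → y i = 0) ∧
      ∀ D : Finset ι, ∑ i ∈ Dᶜ, |x T i| * y i ≤ 1 / 48 →
        ∃ P, legal P T ∧ ∑ i ∈ Dᶜ, ∑ t ∈ fib P T i, a P T t ≤ 1 / 24 * Λ := by
    intro T hT
    obtain ⟨-, hTV, -, hT0⟩ := hx T hT
    set α := {P : Finset (Fin V) // legal P T}
    set g : α → ι → ℝ := fun P i => (∑ t ∈ fib P T i, a P T t) / |x T i|
    have hg0 : ∀ P i, 0 ≤ g P i := fun P i =>
      div_nonneg (sum_nonneg fun t _ => ha P T hT P.2 t) (abs_nonneg _)
    have hLne : L.Nonempty := ⟨_, hL.exists_pos.choose_spec.1⟩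
    obtain ⟨w, hw0, hwpos, hw⟩ := exists_weights hL.convex hLne g (s := 2 * Λ) fun l hl => by
      set P₀ : Finset (Fin V) := univ.filter fun t =>
        ∃ i : ι, encode V T t = (i : WithTop ι) ∧ 2 * |x T i| ≤ |l i| with hP₀
      have hP : legal P₀ T := hL.solid l hl _ fun i => by
        simp only [Pi.smul_apply, smul_eq_mul, erased]
        split_ifs with h
        · obtain ⟨t, ht, hti⟩ := h
          obtain ⟨j, hj, hjl⟩ := (mem_filter.1 ht).2
          rw [hti, WithTop.coe_inj] at hj
          subst hj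
          rwa [abs_mul, abs_of_pos (show (0 : ℝ) < 2 by norm_num)]
        · simp
      refine ⟨⟨P₀, hP⟩, ?_⟩
      calc ∑ i, g ⟨P₀, hP⟩ i * l i ≤ ∑ i, 2 * ∑ t ∈ fib P₀ T i, a P₀ T t := sum_le_sum fun i _ => by
            have hsum0 : 0 ≤ ∑ t ∈ fib P₀ T i, a P₀ T t := sum_nonneg fun t _ => ha P₀ T hT hP t
            by_cases hl2 : 2 * |x T i| ≤ |l i|
            · have hempty : fib P₀ T i = ∅ := filter_eq_empty_iff.2 fun t _ h =>
                h.1 (mem_filter.2 ⟨mem_univ _, i, h.2, hl2⟩)
              simp [g, hempty]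
            · refine le_trans (mul_le_mul_of_nonneg_left ((le_abs_self _).trans (not_le.1 hl2).le)
                (hg0 _ i)) ?_
              rcases eq_or_ne (x T i) 0 with h0 | h0
              · simp [g, h0, hsum0]
              · simp only [g]
                rw [show ∀ A B : ℝ, A / B * (2 * B) = 2 * A * (B / B) by intros; ring,
                  div_self (abs_ne_zero.2 h0), mul_one]
        _ ≤ 2 * Λ := by
            rw [← mul_sum, ← sum_biUnion (hdisj P₀ T univ)]
            refine mul_le_mul_of_nonneg_left (le_trans ?_ (htot P₀ T hT hP)) (by norm_num)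
            exact sum_le_sum_of_subset_of_nonneg (subset_univ _) fun t _ _ => ha P₀ T hT hP t
    set S := ∑ P, w P
    set y : ι → ℝ := fun i => (∑ P, w P * g P i) / (2 * Λ * S)
    refine ⟨y, fun l hl => ?_, fun i hi => ?_, fun D hD => ?_⟩
    · have h1 := hw l hl
      calc ∑ i, l i * y i = (∑ P, w P * ∑ i, g P i * l i) / (2 * Λ * S) := by
            simp only [y, mul_sum, sum_div]
            rw [sum_comm]
            refine sum_congr rfl fun i _ => ?_
            exact sum_congr rfl fun P _ => by ring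
        _ ≤ 1 := (div_le_one (by positivity)).2 h1
    · simp only [y, g]
      rw [sum_eq_zero fun P _ => ?_, zero_div]
      rw [sum_eq_zero fun t ht => absurd (encode_mem (mem_filter.1 ht).2.2) hi, zero_div, mul_zero]
    · have hfi : ∀ P i, |x T i| * g P i = ∑ t ∈ fib P T i, a P T t := fun P i => by
        rcases eq_or_ne (x T i) 0 with h0 | h0
        · have hempty : fib P T i = ∅ := filter_eq_empty_iff.2 fun t _ h =>
            hT0 i (encode_mem h.2) h0
          simp [g, hempty]
        · exact mul_div_cancel₀ _ (abs_ne_zero.2 h0)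
      by_contra hno
      push Not at hno
      have hlt : ∑ P, w P * (1 / 24 * Λ) < ∑ P, w P * ∑ i ∈ Dᶜ, ∑ t ∈ fib P T i, a P T t := by
        obtain ⟨P, -, hP⟩ := exists_ne_zero_of_sum_ne_zero hwpos.ne'
        exact sum_lt_sum (fun Q _ => mul_le_mul_of_nonneg_left (hno Q Q.2).le (hw0 Q))
          ⟨P, mem_univ _, mul_lt_mul_of_pos_left (hno P P.2) (lt_of_le_of_ne (hw0 P) (Ne.symm hP))⟩
      have he : ∑ P, w P * ∑ i ∈ Dᶜ, ∑ t ∈ fib P T i, a P T t =
          (2 * Λ * S) * ∑ i ∈ Dᶜ, |x T i| * y i := by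
        simp only [← hfi, mul_sum]
        rw [sum_comm]
        refine sum_congr rfl fun i _ => ?_
        simp only [y]
        rw [mul_left_comm, mul_div_cancel₀ _ (by positivity), mul_sum]
        exact sum_congr rfl fun P _ => by ring
      rw [he, ← sum_mul] at hlt
      have := mul_le_mul_of_nonneg_left hD (show 0 ≤ 2 * Λ * S by positivity)
      linarith
  choose! y hyPol hysupp hyD using hbal
  have hcell : ∀ T ∈ F, ∃ c ∈ C, ∀ z ∈ K, |∑ i, z i * (y T i - c i)| ≤ 1 / 96 :=
    fun T hT => hC _ (hyPol T hT)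
  choose! cT hcTC hcT using hcell
  set Dc : (ι → ℝ) → Finset ι := fun c =>
    if h : ∃ T ∈ F, cT T = c then h.choose else ∅ with hDc
  have hDcard : ∀ c, (Dc c).card ≤ V := fun c => by
    simp only [hDc]
    split_ifs with h
    · exact (hx _ h.choose_spec.1).2.1
    · simp
  have hsel : ∀ T ∈ F, ∃ P, legal P T ∧
      ∑ i ∈ (Dc (cT T))ᶜ, ∑ t ∈ fib P T i, a P T t ≤ 1 / 24 * Λ := by
    intro T hT
    refine hyD T hT _ ?_
    have hex : ∃ T' ∈ F, cT T' = cT T := ⟨T, hT, rfl⟩
    obtain ⟨hT', hc'⟩ := hex.choose_spec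
    have hD : Dc (cT T) = hex.choose := dif_pos hex
    rw [hD]
    set T' := hex.choose
    set u : ι → ℝ := fun i => if i ∈ T' then 0 else |x T i| with hu
    have huK : u ∈ K := hK _ (hx T hT).1 u fun i => by simp only [hu]; split_ifs <;> simp
    have h1 := abs_le.1 (hcT T hT u huK)
    have h2 := abs_le.1 (hc' ▸ hcT T' hT' u huK)
    simp only [mul_sub, sum_sub_distrib] at h1 h2
    have e1 : ∑ i, u i * y T' i = 0 := sum_eq_zero fun i _ => by
      by_cases hi : i ∈ T'
      · simp [hu, hi]
      · simp [hysupp T' hT' i hi]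
    have e2 : ∑ i, u i * y T i = ∑ i ∈ T'ᶜ, |x T i| * y T i := by
      simp only [hu, ite_mul, zero_mul, sum_ite, sum_const_zero, zero_add]
      exact sum_congr (by ext i; simp) fun i _ => rfl
    linarith
  choose! Psel hPlegal hPsmall using hsel
  set mask : Finset ι → Finset (Fin V) := fun T => univ.filter fun t =>
    t ∈ Psel T ∨ T.card ≤ (t : ℕ) ∨ ∃ i ∈ Dc (cT T), encode V T t = (i : WithTop ι) with hmask
  set key : Finset ι → (ι → ℝ) × Finset (Fin V) × Finset (Fin V) × Finset ι × ℕ := fun T =>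
    (cT T, Psel T, mask T,
      (Dc (cT T)).filter (fun i : ι => ∃ t, t ∉ Psel T ∧ encode V T t = (i : WithTop ι)), T.card)
  set Z : Finset ((ι → ℝ) × Finset (Fin V) × Finset (Fin V) × Finset ι × ℕ) := C.biUnion fun c =>
    {c} ×ˢ ((univ : Finset (Finset (Fin V))) ×ˢ
      ((univ : Finset (Finset (Fin V))) ×ˢ ((Dc c).powerset ×ˢ range (V + 1))))
  have hfibre : ∀ k ∈ Z, ((F.filter fun T => key T = k).card : ℝ) ≤ exp (1 / 24 * Λ) := by
    intro k _
    rcases (F.filter fun T => key T = k).eq_empty_or_nonempty with h0 | ⟨T₀, hT₀⟩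
    · rw [h0, card_empty, Nat.cast_zero]
      positivity
    obtain ⟨hT₀F, rfl⟩ := mem_filter.1 hT₀
    set P := Psel T₀
    set Y := F.filter fun T => key T = key T₀
    have hY : ∀ T ∈ Y, T ∈ F ∧ Psel T = P ∧ mask T = mask T₀ ∧ legal P T := fun T hT => by
      obtain ⟨hTF, hk⟩ := mem_filter.1 hT
      simp only [key, Prod.mk.injEq] at hk
      exact ⟨hTF, hk.2.1, hk.2.2.1, by have := hPlegal T hTF; rwa [hk.2.1] at this⟩
    have hYsub : Y ⊆ F.filter (legal P) := fun T hT =>
      mem_filter.2 ⟨(hY T hT).1, (hY T hT).2.2.2⟩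
    have hsub : Y.image (erasePos V P) ⊆ X P := image_subset_image hYsub
    have hm := card_le_of_key (Y.image (erasePos V P)) (ell P)
      (fun J W hW => hKraft P J W (hW.trans hsub)) (fun _ => ()) {()} (fun _ _ => by simp)
      (fun _ => mask T₀) (β := 1 / 24 * Λ) (fun p hp p' hp' _ t ht => ?_) (fun p hp => ?_)
    · rwa [card_image_of_injOn ((hinj P).mono (coe_subset.2 hYsub)), card_singleton, Nat.cast_one,
        one_mul] at hm
    · obtain ⟨T, hT, rfl⟩ := mem_image.1 hp
      obtain ⟨T', hT', rfl⟩ := mem_image.1 hp'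
      have hk := (mem_filter.1 hT).2.trans (mem_filter.1 hT').2.symm
      simp only [key, Prod.mk.injEq] at hk
      obtain ⟨ec, eP, em, ei, en⟩ := hk
      obtain ⟨hTF, hTP, hTm, -⟩ := hY T hT
      obtain ⟨hTF', hTP', hTm', -⟩ := hY T' hT'
      by_cases htP : t ∈ P
      · simp [erasePos, htP]
      simp only [erasePos, htP, if_false]
      by_cases hts : (t : ℕ) < T.card
      · set J := (mask T₀).filter fun s : Fin V => s ∉ P ∧ (s : ℕ) < T.card with hJ
        have himg : ∀ U ∈ Y, U.card = T.card → J.image (encode V U) =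
            ((Dc (cT U)).filter fun i : ι => ∃ s, s ∉ Psel U ∧ encode V U s = (i : WithTop ι)).image
              ((↑) : ι → WithTop ι) := by
          intro U hU hcard
          obtain ⟨hUF, hUP, hUm, -⟩ := hY U hU
          ext b
          simp only [mem_image, mem_filter, hJ]
          constructor
          · rintro ⟨s, ⟨hs, hsP, hs'⟩, rfl⟩
            rw [← hUm, hmask] at hs
            rcases (mem_filter.1 hs).2 with h | h | ⟨i, hi, he⟩
            · exact absurd (hUP ▸ h) hsP
            · omega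
            · exact ⟨i, ⟨hi, s, hUP.symm ▸ hsP, he⟩, he.symm⟩
          · rintro ⟨i, ⟨hiD, s, hs, he⟩, rfl⟩
            refine ⟨s, ⟨hUm ▸ mem_filter.2 ⟨mem_univ _, Or.inr (Or.inr ⟨i, hiD, he⟩)⟩,
              hUP ▸ hs, ?_⟩, he⟩
            rw [← hcard]
            by_contra hge
            rw [encode, dif_neg hge] at he
            exact WithTop.top_ne_coe he
        refine eqOn_of_image_eq (J := J) ?_ ?_ ?_ t (mem_filter.2 ⟨ht, htP, hts⟩)
        · exact (encode_strictMono T).mono fun s hs => (mem_filter.1 (mem_coe.1 hs)).2.2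
        · exact (encode_strictMono T').mono fun s hs =>
            (mem_filter.1 (mem_coe.1 hs)).2.2.trans_eq en
        · rw [himg T hT rfl, himg T' hT' en.symm, ei]
      · rw [encode, dif_neg hts, encode, dif_neg (en ▸ hts)]
    · obtain ⟨T, hT, rfl⟩ := mem_image.1 hp
      obtain ⟨hTF, hTP, hTm, -⟩ := hY T hT
      refine le_trans ?_ (hPsmall T hTF)
      rw [← sum_biUnion (hdisj _ T _), ← hTm, hTP]
      refine sum_le_sum_of_subset_of_nonneg (fun t ht => ?_) fun t _ _ =>
        ha P T hTF (hY T hT).2.2.2 t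
      simp only [mem_compl, hmask, mem_filter, mem_univ, true_and, not_or, not_le, not_exists,
        not_and, hTP] at ht
      refine mem_biUnion.2 ⟨_, mem_compl.2 fun hi => ht.2.2 _ hi (encode_of_lt ht.2.1), ?_⟩
      exact mem_filter.2 ⟨mem_univ _, ht.1, encode_of_lt ht.2.1⟩
  have hkey : ∀ T ∈ F, key T ∈ Z := fun T hT => mem_biUnion.2 ⟨cT T, hcTC T hT, by
    simp [key, Nat.lt_succ_iff.2 (hx T hT).2.1]⟩
  have hZcard : (Z.card : ℝ) ≤ C.card * 2 ^ (4 * V) := by
    have : Z.card ≤ C.card * 2 ^ (4 * V) := by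
      refine card_biUnion_le.trans ((sum_le_card_nsmul _ _ (2 ^ (4 * V)) fun c _ => ?_).trans_eq
        (smul_eq_mul _ _))
      simp only [card_product, card_singleton, one_mul, card_univ, Fintype.card_finset,
        Fintype.card_fin, card_powerset, card_range]
      rw [show 4 * V = V + (V + (V + V)) by ring, pow_add, pow_add, pow_add]
      exact Nat.mul_le_mul_left _ (Nat.mul_le_mul_left _ (Nat.mul_le_mul
        (Nat.pow_le_pow_right two_pos (hDcard c)) Nat.lt_two_pow_self))
    exact_mod_cast this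
  have hmain : (F.card : ℝ) ≤ C.card * 2 ^ (4 * V) * exp (1 / 24 * Λ) := by
    refine le_trans ?_ (mul_le_mul_of_nonneg_right hZcard (exp_pos _).le)
    rw [card_eq_sum_card_fiberwise (f := key) (t := Z) hkey, Nat.cast_sum]
    refine (sum_le_sum hfibre).trans_eq ?_
    rw [sum_const, nsmul_eq_mul]
  have hFpos : (0 : ℝ) < F.card :=
    Nat.cast_pos.2 (Nat.pos_of_ne_zero fun h => by simp [hΛdef, h] at hΛ)
  have hCpos : (0 : ℝ) < C.card := by exact_mod_cast hC.nonempty.card_pos
  have h := log_le_log hFpos hmain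
  rw [log_mul (by positivity) (exp_pos _).ne', log_mul hCpos.ne' (by positivity), log_pow,
    log_exp] at h
  push_cast at h
  have h7 : (V : ℝ) * log 2 ≤ 8 * L₀ * 0.6932 := mul_le_mul hVL
    (by linarith [Real.log_two_lt_d9]) (log_nonneg one_le_two) (by positivity)
  linarith

end Vale.Agent.P126.Lattice
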