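import Vale.Agent.P126.Basic
import Vale.Agent.P126.Lattice.Cover

/-!
Duality of metric entropy for two bodies which are 1-unconditional in a common basis (P126).
-/

open scoped InnerProductSpace Pointwise
open Finset

namespace Vale.Agent.P126.Lattice

open Vale.Agent.P126.Uncond

variable {n : ℕ} {K L : Set (Space n)}

/-- Invariance under changes of the signs of the coordinates. -/
def IsUnconditional (K : Set (Space n)) : Prop :=
  ∀ x ∈ K, ∀ y : Space n, (∀ i, y i = x i ∨ y i = -x i) → y ∈ K

theorem inner_sum (x y : Space n) : ⟪x, y⟫_ℝ = ∑ i, x i * y i := by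
  simp [PiLp.inner_apply, mul_comm]

theorem IsUnconditional.smul (hu : IsUnconditional K) {t : ℝ} (ht : t ≠ 0) :
    IsUnconditional (t • K) := fun x hx y hy => by
  rw [Set.mem_smul_set_iff_inv_smul_mem₀ ht] at hx ⊢
  refine hu _ hx _ fun i => ?_
  simp only [PiLp.smul_apply, smul_eq_mul]
  rcases hy i with h | h <;> rw [h]
  · exact Or.inl rfl
  · exact Or.inr (by ring)

theorem IsUnconditional.polar (hu : IsUnconditional K) : IsUnconditional (polarBody K) := by
  classical
  intro y hy y' hy' x hx
  have hmem := hu x hx (WithLp.toLp 2 fun i => if y' i = y i then x i else -x i) fun i => by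
    show (if y' i = y i then x i else -x i) = x i ∨ _
    split_ifs with h
    · exact Or.inl rfl
    · exact Or.inr (by simp [h])
  have h := hy _ hmem
  rw [inner_sum] at h ⊢
  refine le_trans (le_of_eq (sum_congr rfl fun i _ => ?_)) h
  show x i * y' i = (if y' i = y i then x i else -x i) * y i
  split_ifs with hi
  · rw [hi]
  · rw [(hy' i).resolve_left hi]
    ring

theorem solid_of_unconditional (hK : Convex ℝ K) (hu : IsUnconditional K) :
    ∀ x ∈ K, ∀ y : Space n, (∀ i, |y i| ≤ |x i|) → y ∈ K := by
  classical
  intro x hx y hy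
  suffices h : ∀ s : Finset (Fin n), ∀ z : Space n, (∀ i ∈ s, |z i| ≤ |x i|) →
      (∀ i, i ∉ s → z i = x i ∨ z i = -x i) → z ∈ K from
    h univ y (fun i _ => hy i) fun i hi => absurd (mem_univ i) hi
  intro s
  induction s using Finset.induction with
  | empty => exact fun z _ hz => hu x hx z fun i => hz i (notMem_empty i)
  | insert j s hj ih =>
    intro z hz hz'
    set p : Space n := WithLp.toLp 2 (Function.update (fun i => z i) j |x j|)
    set q : Space n := WithLp.toLp 2 (Function.update (fun i => z i) j (-|x j|))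
    have hp : p ∈ K := by
      refine ih p (fun i hi => ?_) fun i hi => ?_
      · show |Function.update (fun i => z i) j |x j| i| ≤ |x i|
        rw [Function.update_of_ne fun e : i = j => hj (e ▸ hi)]
        exact hz i (mem_insert_of_mem hi)
      · show Function.update (fun i => z i) j |x j| i = x i ∨ _
        rcases eq_or_ne i j with rfl | hij
        · simpa [p] using abs_choice (x i)
        · simpa [p, hij] using hz' i (by simp [hij, hi])
    have hq : q ∈ K := by
      refine ih q (fun i hi => ?_) fun i hi => ?_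
      · show |Function.update (fun i => z i) j (-|x j|) i| ≤ |x i|
        rw [Function.update_of_ne fun e : i = j => hj (e ▸ hi)]
        exact hz i (mem_insert_of_mem hi)
      · show Function.update (fun i => z i) j (-|x j|) i = x i ∨ _
        rcases eq_or_ne i j with rfl | hij
        · rcases abs_choice (x i) with h | h
          · exact Or.inr (by simp [q, h])
          · exact Or.inl (by simp [h])
        · simpa [q, hij] using hz' i (by simp [hij, hi])
    have hzj := abs_le.1 (hz j (mem_insert_self j s))
    obtain ⟨a, b, ha, hb, hab, he⟩ : ∃ a b : ℝ, 0 ≤ a ∧ 0 ≤ b ∧ a + b = 1 ∧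
        a * |x j| + b * (-|x j|) = z j := by
      rcases eq_or_lt_of_le (abs_nonneg (x j)) with h0 | h0
      · refine ⟨1, 0, zero_le_one, le_rfl, by norm_num, ?_⟩
        rw [← h0] at hzj ⊢
        linarith [hzj.1, hzj.2]
      · refine ⟨(|x j| + z j) / (2 * |x j|), (|x j| - z j) / (2 * |x j|),
          div_nonneg (by linarith) (by linarith), div_nonneg (by linarith) (by linarith), ?_, ?_⟩
        · field_simp
          ring
        · field_simp
          ring
    convert hK hp hq ha hb hab using 1
    ext i
    show z i = a * Function.update (fun i => z i) j |x j| i +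
      b * Function.update (fun i => z i) j (-|x j|) i
    rcases eq_or_ne i j with rfl | hij
    · simp [← he]
    · rw [Function.update_of_ne hij, Function.update_of_ne hij, ← add_mul, hab, one_mul]

/-- The body as a set of coordinate tuples. -/
def coords (K : Set (Space n)) : Set (Fin n → ℝ) := {u | (WithLp.toLp 2 u : Space n) ∈ K}

theorem solid_coords (hK : IsSymmBody K) (hu : IsUnconditional K) : Solid (coords K) :=
  fun _ hu' _ hv => solid_of_unconditional hK.2.1 hu _ hu' _ hv

theorem isLatticeBody_coords (hK : IsSymmBody K) (hu : IsUnconditional K) :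
    IsLatticeBody (coords K) := by
  have hpre : coords K = (fun x : Space n => fun i => x i) '' K := by
    ext u
    constructor
    · exact fun h => ⟨_, h, rfl⟩
    · rintro ⟨x, hx, rfl⟩
      exact hx
  refine ⟨solid_coords hK hu, fun u hu' v hv a b ha hb hab => ?_,
    hpre ▸ hK.1.image (by fun_prop), ?_⟩
  · exact hK.2.1 hu' hv ha hb hab
  · obtain ⟨r, hr, hball⟩ := hK.exists_ball
    refine ⟨fun _ => r / (n + 1), hball ?_, fun _ => by positivity⟩
    rw [mem_closedBall_zero_iff]
    set x : Space n := WithLp.toLp 2 fun _ => r / (n + 1)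
    have h : x = ∑ i, EuclideanSpace.single i (r / (n + 1)) := by
      ext j
      simp [x]
    calc ‖x‖ ≤ ∑ i : Fin n, ‖EuclideanSpace.single i (r / (n + 1) : ℝ)‖ :=
          h ▸ norm_sum_le _ _
      _ = n * (r / (n + 1)) := by simp [abs_of_pos hr, abs_of_nonneg (show (0 : ℝ) ≤ n + 1 by positivity)]
      _ ≤ r := by
          rw [mul_div_assoc', div_le_iff₀ (by positivity)]
          linarith

/-- `log N(K, L) ≤ 43 log N(Lᵒ, Kᵒ / 192)`. -/
theorem log_coveringNum_le (hK : IsSymmBody K) (huK : IsUnconditional K) (hL : IsSymmBody L)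
    (huL : IsUnconditional L) :
    Real.log (coveringNum K L) ≤
      43 * Real.log (coveringNum (polarBody L) ((192 : ℝ)⁻¹ • polarBody K)) := by
  classical
  have h2 : (2 : ℝ)⁻¹ ≠ 0 := by norm_num
  obtain ⟨C₀, hC₀, hcov⟩ := exists_cover hL.polar.1
    (hK.polar.smul (show (192 : ℝ)⁻¹ ≠ 0 by norm_num))
  set C : Finset (Fin n → ℝ) := C₀.image fun c i => 2 * c i
  have hC : IsCellCover (coords K) (coords ((2 : ℝ)⁻¹ • L)) C := by
    intro y hy
    set g : Space n := WithLp.toLp 2 fun i => y i / 2
    have hg : g ∈ polarBody L := fun l hl => by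
      rw [inner_sum]
      have h := hy (fun i => (2 : ℝ)⁻¹ * l i) (by
        show (WithLp.toLp 2 fun i => (2 : ℝ)⁻¹ * l i : Space n) ∈ (2 : ℝ)⁻¹ • L
        exact ⟨l, hl, by ext i; simp⟩)
      refine le_trans (le_of_eq (sum_congr rfl fun i _ => ?_)) h
      show l i * (y i / 2) = _
      ring
    have := hcov hg
    simp only [Set.mem_iUnion] at this
    obtain ⟨c, hc, b, hb, hgc⟩ := this
    refine ⟨_, mem_image_of_mem _ hc, fun u hu' => ?_⟩
    obtain ⟨b', hb', rfl⟩ := hb
    have h1 := hb' _ hu'
    have h3 := hb' _ (hK.2.2.2 _ hu')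
    rw [inner_neg_left] at h3
    rw [inner_sum] at h1 h3
    have e : ∑ i, u i * (y i - 2 * c i) =
        (96 : ℝ)⁻¹ * ∑ i, (WithLp.toLp 2 u : Space n) i * b' i := by
      rw [mul_sum]
      refine sum_congr rfl fun i _ => ?_
      have e1 : y i / 2 = c i + (192 : ℝ)⁻¹ * b' i := by
        have := congrArg (fun v : Space n => v i) hgc.symm
        simpa [g] using this
      show _ = (96 : ℝ)⁻¹ * (u i * b' i)
      linear_combination (2 * u i) * e1
    rw [e, abs_mul, abs_of_pos (show (0 : ℝ) < 96⁻¹ by norm_num), inv_mul_le_iff₀ (by norm_num)]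
    refine (abs_le.2 ⟨?_, h1⟩).trans_eq (by norm_num)
    linarith
  obtain ⟨D, hD, hDcov⟩ := exists_cover_two (solid_coords hK huK)
    (isLatticeBody_coords (hL.smul h2) (huL.smul h2)) hC
  have hle : coveringNum K L ≤ D.card := by
    refine (coveringNum_le (C := D.image fun d => (WithLp.toLp 2 d : Space n))
      fun x hx => ?_).trans card_image_le
    obtain ⟨d, hd, hdx⟩ := hDcov (fun i => x i) hx
    simp only [Set.mem_iUnion]
    obtain ⟨l, hl, hlx⟩ := hdx
    refine ⟨_, mem_image_of_mem _ hd, l, hl, ?_⟩
    ext i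
    have h := congrArg (fun v : Space n => v i) hlx
    simp at h
    simp
    linarith
  rcases Nat.eq_zero_or_pos (coveringNum K L) with h0 | h0
  · rw [h0, Nat.cast_zero, Real.log_zero]
    exact mul_nonneg (by norm_num) (Real.log_natCast_nonneg _)
  refine (Real.log_le_log (by exact_mod_cast h0) (Nat.cast_le.2 hle)).trans (hD.trans ?_)
  refine mul_le_mul_of_nonneg_left (Real.log_le_log ?_ ?_) (by norm_num)
  · exact_mod_cast hC.nonempty.card_pos
  · exact_mod_cast card_image_le.trans hC₀

/-- `log N(Lᵒ, 192 Kᵒ) ≤ 43 log N(K, L)`. -/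
theorem log_coveringNum_polar_le (hK : IsSymmBody K) (huK : IsUnconditional K) (hL : IsSymmBody L)
    (huL : IsUnconditional L) :
    Real.log (coveringNum (polarBody L) ((192 : ℝ) • polarBody K)) ≤
      43 * Real.log (coveringNum K L) := by
  have h := log_coveringNum_le hL.polar huL.polar (hK.polar.smul (show (192 : ℝ) ≠ 0 by norm_num))
    (huK.polar.smul (by norm_num))
  rwa [polarBody_smul (by norm_num), hK.bipolar, hL.bipolar, coveringNum_smul (by norm_num)] at h

end Vale.Agent.P126.Lattice
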