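import Vale.Agent.P126.Lattice.Profile

/-!
Packing bounds: the large coordinates of an element of a solid body are few, and their
magnitudes are few, in terms of a cover of the polar (P126).
-/

open Finset Real

namespace Vale.Agent.P126.Lattice

open Vale.Agent.P126.Uncond

variable {ι : Type*} [Fintype ι] [DecidableEq ι] {K L : Set (ι → ℝ)} {C : Finset (ι → ℝ)}

/-- A cover of the polar of `L`, in the seminorm of `K`, to accuracy `1 / 96`. -/
def IsCellCover (K L : Set (ι → ℝ)) (C : Finset (ι → ℝ)) : Prop :=
  ∀ y ∈ Pol L, ∃ c ∈ C, ∀ x ∈ K, |∑ i, x i * (y i - c i)| ≤ 1 / 96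

omit [DecidableEq ι] in
theorem IsCellCover.nonempty (hC : IsCellCover K L C) : C.Nonempty := by
  obtain ⟨c, hc, -⟩ := hC 0 (fun l _ => by simp)
  exact ⟨c, hc⟩

omit [DecidableEq ι] in
theorem IsCellCover.log_nonneg (_hC : IsCellCover K L C) : 0 ≤ log (C.card : ℝ) :=
  Real.log_natCast_nonneg _

/-- The weights of a profile add up to at most `4 log card C`. -/
theorem sum_weight_le (hK : Solid K) (hC : IsCellCover K L C)
    {x v q : ι → ℝ} (hx : x ∈ K) (hv : ∀ i, 0 ≤ v i) (hq : ∀ i, 0 ≤ q i ∧ q i ≤ 1)
    (hsupp : ∀ i, q i ≠ 0 → 0 < v i ∧ v i < 6 * |x i|)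
    (hpol : ∀ l ∈ L, ∑ i, q i * |l i| / v i ≤ ∑ i, q i) :
    ∑ i, q i ≤ 4 * log (C.card : ℝ) := by
  classical
  set σ := ∑ i, q i with hσ
  have hσ0 : 0 ≤ σ := sum_nonneg fun i _ => (hq i).1
  rcases hσ0.eq_or_lt with h | hσpos
  · rw [← h]
    linarith [hC.log_nonneg]
  set sgn : Finset ι → ι → ℝ := fun e i => if i ∈ e then 1 else -1
  set y : Finset ι → ι → ℝ := fun e i => sgn e i * q i / (σ * v i)
  set u : Finset ι → ι → ℝ := fun e i => if q i = 0 then 0 else v i / 6
  have hy : ∀ e, y e ∈ Pol L := fun e => mem_pol_of_abs fun l hl => by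
    calc ∑ i, |l i| * |y e i| = (∑ i, q i * |l i| / v i) / σ := by
          rw [sum_div]
          refine sum_congr rfl fun i _ => ?_
          have : |sgn e i| = 1 := by simp only [sgn]; split_ifs <;> simp
          simp only [y, abs_div, abs_mul, this, one_mul, abs_of_nonneg (hq i).1,
            abs_of_pos hσpos, abs_of_nonneg (hv i)]
          ring
      _ ≤ 1 := (div_le_one hσpos).2 (hpol l hl)
  choose cd hcdC hcd using fun e => hC (y e) (hy e)
  set P := (univ.filter fun i => q i ≠ 0).powerset with hP
  set τ := log (4 : ℝ) with hτ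
  have hτ0 : 0 < τ := log_pos (by norm_num)
  have hfib : ∀ c ∈ C, ((P.filter fun e => cd e = c).card : ℝ) ≤
      exp (τ * (σ / 16)) * ∏ i, if q i ≠ 0 then (1 + exp (-(τ * q i))) else 1 := by
    intro c _
    set dis : Finset ι → ι → ℝ := fun e i =>
      if (i ∈ e) = (0 ≤ c i) then 0 else q i with hdis
    have hkey : ∀ e ∈ P.filter (fun e => cd e = c), ∑ i, dis e i ≤ σ / 16 := by
      intro e he
      obtain ⟨-, hec⟩ := mem_filter.1 he
      have h1 := sum_mul_abs_le_of_solid hK (e := fun i => y e i - c i) (η := 1 / 96)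
        (fun z hz => hec ▸ hcd e z hz) (x := u e) (hK x hx _ fun i => by
          simp only [u]
          split_ifs with h
          · simp
          · rw [abs_of_nonneg (by linarith [(hsupp i h).1])]
            linarith [(hsupp i h).2, abs_nonneg (x i)])
      calc ∑ i, dis e i ≤ ∑ i, 6 * σ * (|u e i| * |y e i - c i|) := sum_le_sum fun i _ => by
            simp only [hdis]
            split_ifs with h
            · positivity
            by_cases hqi : q i = 0
            · simp [hqi, u]
            have hvi := (hsupp i hqi).1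
            have hge : q i / (σ * v i) ≤ |y e i - c i| := by
              have h0 : 0 ≤ q i / (σ * v i) := div_nonneg (hq i).1 (by positivity)
              simp only [y, sgn]
              by_cases hie : i ∈ e
              · simp only [hie, if_true, one_mul]
                have hc : c i < 0 := not_le.1 fun hc => h (by simp [hie, hc])
                exact le_trans (by linarith) (le_abs_self _)
              · simp only [hie, if_false]
                have hc : 0 ≤ c i := not_not.1 fun hc => h (by simp [hie, hc])
                rw [abs_sub_comm]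
                refine le_trans (le_of_eq ?_) (le_trans (by linarith : c i - -1 * q i / (σ * v i) - c i
                  ≤ c i - -1 * q i / (σ * v i)) (le_abs_self _))
                ring
            have h2 := mul_le_mul_of_nonneg_left hge (abs_nonneg (u e i))
            simp only [u, hqi, if_false] at h2 ⊢
            rw [abs_of_pos (show 0 < v i / 6 by positivity)] at h2 ⊢
            refine le_trans (le_of_eq ?_) (mul_le_mul_of_nonneg_left h2 (show 0 ≤ 6 * σ by positivity))
            field_simp
        _ ≤ 6 * σ * (1 / 96) := by rw [← mul_sum]; gcongr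
        _ = σ / 16 := by ring
    calc ((P.filter fun e => cd e = c).card : ℝ)
        = ∑ _e ∈ P.filter (fun e => cd e = c), 1 := by simp
      _ ≤ ∑ e ∈ P.filter (fun e => cd e = c), exp (τ * (σ / 16)) * exp (-(τ * ∑ i, dis e i)) := by
          refine sum_le_sum fun e he => ?_
          rw [← exp_add]
          refine one_le_exp ?_
          have := mul_le_mul_of_nonneg_left (hkey e he) hτ0.le
          linarith
      _ ≤ ∑ e ∈ P, exp (τ * (σ / 16)) * exp (-(τ * ∑ i, dis e i)) :=
          sum_le_sum_of_subset_of_nonneg (filter_subset _ _) fun e _ _ => by positivity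
      _ = _ := by
          rw [← mul_sum, ← prod_filter]
          congr 1
          set N := univ.filter fun i => q i ≠ 0
          have e1 : ∀ e ∈ P, exp (-(τ * ∑ i, dis e i)) =
              (∏ i ∈ e, if 0 ≤ c i then 1 else exp (-(τ * q i))) *
                ∏ i ∈ N \ e, if 0 ≤ c i then exp (-(τ * q i)) else 1 := by
            intro e he
            rw [mul_sum, ← sum_neg_distrib, exp_sum, ← prod_subset (subset_univ N),
              ← prod_sdiff (mem_powerset.1 he), mul_comm]
            · congr 1
              · refine prod_congr rfl fun i hi => ?_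
                simp only [hdis, hi, eq_iff_iff, true_iff]
                split_ifs <;> simp
              · refine prod_congr rfl fun i hi => ?_
                simp only [hdis, (mem_sdiff.1 hi).2, eq_iff_iff, false_iff]
                split_ifs <;> simp
            · intro i _ hi
              simp only [N, mem_filter, mem_univ, true_and, not_not] at hi
              simp only [hdis, hi, ite_self, mul_zero, neg_zero, exp_zero]
          rw [sum_congr rfl e1, hP, ← prod_add]
          refine prod_congr rfl fun i _ => ?_
          split_ifs <;> ring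
  have hle : (P.card : ℝ) ≤ C.card * (exp (τ * (σ / 16)) *
      ∏ i, if q i ≠ 0 then (1 + exp (-(τ * q i))) else 1) := by
    rw [card_eq_sum_card_fiberwise (f := cd) (t := C) fun e _ => hcdC e, Nat.cast_sum]
    refine (sum_le_sum hfib).trans_eq ?_
    rw [sum_const, nsmul_eq_mul]
  have hprod : ∀ i, (if q i ≠ 0 then (1 + exp (-(τ * q i))) else (1 : ℝ)) ≤
      (if q i ≠ 0 then 2 else 1) * exp (-(3 / 8 * q i)) := by
    intro i
    split_ifs with h
    · have hconv := convexOn_exp.2 (Set.mem_univ 0) (Set.mem_univ (-τ))
        (show 0 ≤ 1 - q i by linarith [(hq i).2]) (hq i).1 (by ring)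
      simp only [smul_eq_mul, mul_zero, zero_add, exp_zero, mul_one] at hconv
      have e4 : exp (-τ) = 1 / 4 := by rw [exp_neg, hτ, exp_log (by norm_num)]; norm_num
      rw [e4, show q i * -τ = -(τ * q i) by ring] at hconv
      linarith [add_one_le_exp (-(3 / 8 * q i))]
    · simp only [ne_eq, not_not] at h
      simp [h]
  have hfin : (P.card : ℝ) ≤ C.card * (exp (τ * (σ / 16)) * (P.card * exp (-(3 / 8 * σ)))) := by
    refine hle.trans (mul_le_mul_of_nonneg_left (mul_le_mul_of_nonneg_left ?_ (exp_pos _).le)
      (Nat.cast_nonneg _))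
    refine (prod_le_prod (fun i _ => ?_) fun i _ => hprod i).trans_eq ?_
    · split_ifs <;> positivity
    · rw [prod_mul_distrib, ← exp_sum, hP, card_powerset, Nat.cast_pow, ← prod_filter, prod_const,
        sum_neg_distrib, ← mul_sum]
      norm_num
      rw [hσ]
  have hPpos : (0 : ℝ) < P.card := by rw [hP, card_powerset]; positivity
  have h7 : 1 ≤ (C.card : ℝ) * exp (τ * (σ / 16) + -(3 / 8 * σ)) := by
    rw [exp_add]
    refine le_of_mul_le_mul_right ?_ hPpos
    rw [one_mul]
    refine hfin.trans_eq ?_
    ring
  have hCpos : (0 : ℝ) < C.card := by exact_mod_cast hC.nonempty.card_pos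
  have h8 := log_le_log one_pos h7
  rw [log_one, log_mul hCpos.ne' (exp_pos _).ne', log_exp] at h8
  have h9 : τ ≤ 2 * (7 / 10) := by
    rw [hτ, show (4 : ℝ) = 2 ^ 2 by norm_num, log_pow]
    push_cast
    linarith [Real.log_two_lt_d9]
  have h10 := mul_le_mul_of_nonneg_right h9 (show 0 ≤ σ / 16 by positivity)
  linarith

/-- Grid packing of the magnitudes in a set of coordinates, in units of its profile. -/
theorem sum_log_grid_le (hK : Solid K) (hC : IsCellCover K L C)
    {x v : ι → ℝ} (hx : x ∈ K) (T : Finset ι) (hvT : ∀ i ∈ T, 0 < v i)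
    (hpol : ∀ l ∈ L, ∑ i ∈ T, |l i| / v i ≤ T.card) :
    ∑ i ∈ T.filter (fun i => v i / 2 < |x i|), log (2 * (⌈|x i| / v i⌉₊ : ℝ) + 1) ≤
      log (C.card : ℝ) + T.card * log 2 := by
  classical
  set T' := T.filter fun i => v i / 2 < |x i| with hT'
  set s := T.card with hs
  rcases T'.eq_empty_or_nonempty with h | h
  · rw [h, sum_empty]
    linarith [hC.log_nonneg, mul_nonneg (Nat.cast_nonneg (α := ℝ) s) (log_nonneg one_le_two)]
  have hs0 : (0 : ℝ) < s := by
    exact_mod_cast (card_pos.2 h).trans_le (card_le_card (filter_subset _ _))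
  set R : ι → ℕ := fun i => ⌈|x i| / v i⌉₊ with hR
  set P : Finset (ι → ℤ) :=
    Fintype.piFinset fun i => if i ∈ T' then Icc (-(R i : ℤ)) (R i) else {0} with hP
  set y : (ι → ℤ) → ι → ℝ := fun k i => if i ∈ T' then (k i : ℝ) / (3 * s * |x i|) else 0
  have hTx : ∀ i ∈ T', v i / 2 < |x i| := fun i hi => (mem_filter.1 hi).2
  have hTv : ∀ i ∈ T', 0 < v i := fun i hi => hvT i (mem_filter.1 hi).1
  have hTpos : ∀ i ∈ T', 0 < |x i| := fun i hi =>
    lt_trans (by linarith [hTv i hi]) (hTx i hi)
  have hy1 : ∀ k ∈ P, y k ∈ Pol L := fun k hk => mem_pol_of_abs fun l hl => by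
    calc ∑ i, |l i| * |y k i| = ∑ i ∈ T', |l i| * |y k i| :=
          (sum_subset (subset_univ _) fun i _ hi => by simp [y, hi]).symm
      _ ≤ ∑ i ∈ T', |l i| / v i / s := sum_le_sum fun i hi => by
          have := hTpos i hi
          have hvi := hTv i hi
          have hki : k i ∈ Icc (-(R i : ℤ)) (R i) := by
            simpa [hP, hi] using Fintype.mem_piFinset.1 hk i
          rw [mem_Icc] at hki
          have h2 : ((k i).natAbs : ℝ) ≤ R i := by exact_mod_cast (by omega : (k i).natAbs ≤ R i)
          rw [Nat.cast_natAbs, Int.cast_abs] at h2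
          have h3 : (R i : ℝ) < |x i| / v i + 1 := Nat.ceil_lt_add_one (by positivity)
          have h4 : |(k i : ℝ)| * v i ≤ 3 * |x i| := by
            have h5 := mul_le_mul_of_nonneg_right (h2.trans h3.le) hvi.le
            rw [add_mul, div_mul_cancel₀ _ hvi.ne', one_mul] at h5
            linarith [hTx i hi]
          simp only [y, hi, if_true, abs_div,
            abs_of_pos (show 0 < 3 * (s : ℝ) * |x i| by positivity)]
          rw [div_div, mul_div_assoc', div_le_div_iff₀ (by positivity) (by positivity)]
          calc |l i| * |(k i : ℝ)| * (v i * s) = |l i| * s * (|(k i : ℝ)| * v i) := by ring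
            _ ≤ |l i| * s * (3 * |x i|) := mul_le_mul_of_nonneg_left h4 (by positivity)
            _ = |l i| * (3 * s * |x i|) := by ring
      _ ≤ 1 := by
          rw [← sum_div, div_le_one hs0]
          refine le_trans (sum_le_sum_of_subset_of_nonneg (filter_subset _ _) fun i hi _ => ?_)
            (hpol l hl)
          have := hvT i hi
          positivity
  have hc : ∀ k ∈ P, ∃ c ∈ C, ∀ z ∈ K, |∑ i, z i * (y k i - c i)| ≤ 1 / 96 :=
    fun k hk => hC _ (hy1 k hk)
  choose! cd hcdC hcd using hc
  have hfib : ∀ c ∈ C, ((P.filter fun k => cd k = c).card : ℝ) ≤ (2 : ℝ) ^ s := by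
    intro c _
    set j : ι → ℤ := fun i => round (3 * s * |x i| * c i)
    set u := log 4 with hu
    have hu0 : 0 < u := log_pos (by norm_num)
    have hkey : ∀ k ∈ P.filter (fun k => cd k = c),
        ∑ i ∈ T', |((k i - j i : ℤ) : ℝ)| ≤ s / 16 := by
      intro k hk
      obtain ⟨hk, hkc⟩ := mem_filter.1 hk
      have h1 := sum_mul_abs_le_of_solid hK (e := fun i => y k i - c i) (η := 1 / 96)
        (fun z hz => hkc ▸ hcd k hk z hz) hx
      have h2 := (sum_le_sum_of_subset_of_nonneg (subset_univ T')
        fun i _ _ => mul_nonneg (abs_nonneg (x i)) (abs_nonneg (y k i - c i))).trans h1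
      calc ∑ i ∈ T', |((k i - j i : ℤ) : ℝ)|
          ≤ ∑ i ∈ T', 6 * s * (|x i| * |y k i - c i|) := sum_le_sum fun i hi => by
            have h3 : |3 * s * |x i| * c i - (j i : ℝ)| ≤ |3 * s * |x i| * c i - (k i : ℝ)| :=
              round_le _ _
            have h4 : |(k i : ℝ) - 3 * s * |x i| * c i| =
                3 * s * (|x i| * |y k i - c i|) := by
              have := hTpos i hi
              simp only [y, hi, if_true]
              rw [← mul_assoc, ← abs_of_pos (show 0 < 3 * (s : ℝ) * |x i| by positivity), ← abs_mul,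
                mul_sub, abs_of_pos (show 0 < 3 * (s : ℝ) * |x i| by positivity)]
              congr 2
              field_simp
            have h5 := abs_sub_le (k i : ℝ) (3 * s * |x i| * c i) (j i : ℝ)
            rw [abs_sub_comm _ (k i : ℝ)] at h3
            push_cast
            linarith
        _ ≤ 6 * s * (1 / 96) := by rw [← mul_sum]; gcongr
        _ = s / 16 := by ring
    calc ((P.filter fun k => cd k = c).card : ℝ) = ∑ _k ∈ P.filter (fun k => cd k = c), 1 := by
          simp
      _ ≤ ∑ k ∈ P.filter (fun k => cd k = c),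
          exp (u * (s / 16) - ∑ i ∈ T', u * |((k i - j i : ℤ) : ℝ)|) := by
          refine sum_le_sum fun k hk => one_le_exp (sub_nonneg.2 ?_)
          rw [← mul_sum]
          exact mul_le_mul_of_nonneg_left (hkey k hk) hu0.le
      _ ≤ ∑ k ∈ P, exp (u * (s / 16)) *
          ∏ i, if i ∈ T' then exp (-(u * |((k i - j i : ℤ) : ℝ)|)) else 1 := by
          refine le_trans (le_of_eq (sum_congr rfl fun k _ => ?_))
            (sum_le_sum_of_subset_of_nonneg (filter_subset _ _) fun k _ _ => ?_)
          · rw [prod_ite_mem, univ_inter, ← exp_sum, ← exp_add]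
            simp [sub_eq_add_neg, sum_neg_distrib]
          · refine mul_nonneg (exp_pos _).le (prod_nonneg fun i _ => ?_)
            split_ifs <;> positivity
      _ ≤ exp (u * (s / 16)) * (5 / 3) ^ T'.card := by
          rw [← mul_sum, hP, ← prod_univ_sum (fun i => if i ∈ T' then Icc (-(R i : ℤ)) (R i)
            else {0}) fun i (m : ℤ) => if i ∈ T' then exp (-(u * |((m - j i : ℤ) : ℝ)|)) else 1,
            ← prod_mul_prod_compl T', prod_eq_one (s := T'ᶜ) fun i hi => by
              simp [mem_compl.1 hi], mul_one]
          refine mul_le_mul_of_nonneg_left ((prod_le_prod (fun i hi => ?_) fun i hi => ?_).trans_eq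
            (prod_const _)) (exp_pos _).le
          · simp only [hi, if_true]
            positivity
          · simp only [hi, if_true]
            refine (sum_exp_neg_abs_le _ _ hu0).trans_eq ?_
            rw [hu, exp_log (by norm_num)]
            norm_num
      _ ≤ exp (u * (s / 16)) * (5 / 3) ^ s := mul_le_mul_of_nonneg_left
          (pow_le_pow_right₀ (by norm_num) (card_le_card (filter_subset _ _))) (exp_pos _).le
      _ ≤ 2 ^ s := by
          rw [show u * ((s : ℝ) / 16) = (s : ℝ) * (u / 16) by ring, exp_nat_mul, ← mul_pow]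
          refine pow_le_pow_left₀ (by positivity) ?_ _
          have h8 : exp (u / 16) ^ 8 = 2 := by
            rw [← exp_nat_mul, hu, show ((8 : ℕ) : ℝ) * (log 4 / 16) = log 2 by
              rw [show (4 : ℝ) = 2 ^ 2 by norm_num, log_pow]; push_cast; ring,
              exp_log two_pos]
          have h9 : exp (u / 16) ≤ 6 / 5 :=
            (pow_le_pow_iff_left₀ (exp_pos _).le (by norm_num) (by norm_num : (8 : ℕ) ≠ 0)).1
              (h8.trans_le (by norm_num))
          linarith
  have hPcard : (P.card : ℝ) = ∏ i ∈ T', (2 * (R i : ℝ) + 1) := by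
    rw [hP, Fintype.card_piFinset, ← prod_mul_prod_compl T',
      prod_eq_one (s := T'ᶜ) fun i hi => by simp [mem_compl.1 hi], mul_one, Nat.cast_prod]
    refine prod_congr rfl fun i hi => ?_
    rw [if_pos hi, Int.card_Icc, show ((R i : ℤ) + 1 - -(R i : ℤ)).toNat = 2 * R i + 1 by omega]
    push_cast
    ring
  have hle : (P.card : ℝ) ≤ C.card * (2 : ℝ) ^ s := by
    rw [card_eq_sum_card_fiberwise (f := cd) (t := C) hcdC, Nat.cast_sum]
    refine (sum_le_sum hfib).trans_eq ?_
    rw [sum_const, nsmul_eq_mul]
  rw [hPcard] at hle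
  have hCpos : (0 : ℝ) < C.card := by exact_mod_cast hC.nonempty.card_pos
  have h6 := log_le_log (prod_pos fun i _ => by positivity) hle
  rwa [log_prod fun i _ => by positivity, log_mul hCpos.ne' (by positivity), log_pow] at h6

end Vale.Agent.P126.Lattice
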