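import Vale.Agent.P126.Uncond.Sums

/-!
The profile of a vector relative to a solid body: a maximiser of a smoothed truncated
log-product splits off a small set of large coordinates (P126).
-/

open Finset Real

namespace Vale.Agent.P126.Lattice

open Vale.Agent.P126.Uncond

variable {ι : Type*} [Fintype ι]

/-- A solid convex body. -/
structure IsLatticeBody (L : Set (ι → ℝ)) : Prop where
  solid : Solid L
  convex : Convex ℝ L
  compact : IsCompact L
  exists_pos : ∃ v ∈ L, ∀ i, 0 < v i

/-- The polar set. -/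
def Pol (L : Set (ι → ℝ)) : Set (ι → ℝ) := {y | ∀ l ∈ L, ∑ i, l i * y i ≤ 1}

theorem sum_abs_le_of_mem_pol {L : Set (ι → ℝ)} (hL : Solid L) {y : ι → ℝ} (hy : y ∈ Pol L)
    {l : ι → ℝ} (hl : l ∈ L) : ∑ i, |l i| * |y i| ≤ 1 := by
  refine sum_mul_abs_le_of_solid hL (fun x hx => abs_le.2 ⟨?_, hy x hx⟩) hl
  have h := hy (fun i => -x i) (hL x hx _ fun i => by simp)
  simp only [neg_mul, sum_neg_distrib] at h
  linarith

theorem mem_pol_of_abs {L : Set (ι → ℝ)} {y : ι → ℝ}
    (h : ∀ l ∈ L, ∑ i, |l i| * |y i| ≤ 1) : y ∈ Pol L := fun l hl =>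
  (sum_le_sum fun i _ => (le_abs_self _).trans_eq (abs_mul (l i) (y i))).trans (h l hl)

/-- The potential of one coordinate. -/
noncomputable def phi (a v : ℝ) : ℝ :=
  if a = 0 then 0 else log (min v a / a) + 1 - min v a / a

/-- Its derivative. -/
noncomputable def dphi (a v : ℝ) : ℝ := if a = 0 then 0 else max (1 / v - 1 / a) 0

theorem phi_tangent {a v w : ℝ} (ha : 0 ≤ a) (hv : a ≠ 0 → 0 < v) (hw : a ≠ 0 → 0 < w) :
    phi a w ≤ phi a v + dphi a v * (w - v) := by
  rcases eq_or_lt_of_le ha with rfl | ha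
  · simp [phi, dphi]
  have hv := hv ha.ne'
  have hw := hw ha.ne'
  have key : ∀ p q : ℝ, 0 < p → 0 < q →
      log (p / a) + 1 - p / a ≤ log (q / a) + 1 - q / a + (1 / q - 1 / a) * (p - q) := by
    intro p q hp hq
    have h := log_le_sub_one_of_pos (div_pos hp hq)
    rw [log_div hp.ne' hq.ne'] at h
    rw [log_div hp.ne' ha.ne', log_div hq.ne' ha.ne']
    have e : (1 / q - 1 / a) * (p - q) = p / q - 1 - p / a + q / a := by field_simp; ring
    rw [e]
    linarith
  simp only [phi, dphi, ha.ne', if_false]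
  rcases le_total a v with hav | hav
  · rw [min_eq_right hav, div_self ha.ne', log_one,
      max_eq_right (sub_nonpos.2 (one_div_le_one_div_of_le ha hav)), zero_mul, add_zero]
    have h := log_le_sub_one_of_pos (div_pos (lt_min hw ha) ha)
    linarith
  · rw [min_eq_left hav, max_eq_left (sub_nonneg.2 (one_div_le_one_div_of_le hv hav))]
    refine (key (min w a) v (lt_min hw ha) hv).trans (add_le_add le_rfl ?_)
    exact mul_le_mul_of_nonneg_left (by linarith [min_le_left w a])
      (sub_nonneg.2 (one_div_le_one_div_of_le hv hav))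

theorem phi_nonpos {a v : ℝ} (ha : 0 ≤ a) (hv : a ≠ 0 → 0 < v) : phi a v ≤ 0 := by
  rcases eq_or_lt_of_le ha with rfl | ha
  · simp [phi]
  have h := log_le_sub_one_of_pos (div_pos (lt_min (hv ha.ne') ha) ha)
  simp only [phi, ha.ne', if_false]
  linarith

/-- Every vector has a profile `v ∈ L` with weights `q` supported on coordinates where the vector
is large, which form a functional of the polar. -/
theorem exists_profile {L : Set (ι → ℝ)} (hL : IsLatticeBody L) (x : ι → ℝ) :
    ∃ v ∈ L, ∃ q : ι → ℝ, (∀ i, 0 ≤ v i) ∧ (∀ i, 0 ≤ q i ∧ q i ≤ 1) ∧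
      (∀ i, q i ≠ 0 → 0 < v i ∧ v i < 6 * |x i|) ∧ (∀ i, q i ≤ 1 / 2 → |x i| ≤ v i / 3) ∧
      ∀ l ∈ L, ∑ i, q i * |l i| / v i ≤ ∑ i, q i := by
  classical
  set a : ι → ℝ := fun i => 6 * |x i| with ha'
  have ha : ∀ i, 0 ≤ a i := fun i => mul_nonneg (by norm_num) (abs_nonneg _)
  obtain ⟨v₀, hv₀L, hv₀⟩ := hL.exists_pos
  set Φ : (ι → ℝ) → ℝ := fun v => ∑ i, phi (a i) (v i)
  set δ : ι → ℝ := fun i =>
    if a i = 0 then 0 else min (v₀ i) (a i * exp (Φ v₀ - 1)) / 2 with hδ
  have hδ0 : ∀ i, 0 ≤ δ i := fun i => by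
    have := hv₀ i
    have := ha i
    simp only [hδ]
    split_ifs <;> positivity
  have hδpos : ∀ i, a i ≠ 0 → 0 < δ i := fun i hi => by
    have := hv₀ i
    have : 0 < a i := lt_of_le_of_ne (ha i) (Ne.symm hi)
    simp only [hδ, hi, if_false]
    positivity
  set M : Set (ι → ℝ) := L ∩ {v | ∀ i, δ i ≤ v i} with hM
  have hMc : IsCompact M := hL.compact.inter_right (by
    simp only [Set.ofPred_forall]
    exact isClosed_iInter fun i => isClosed_le continuous_const (continuous_apply i))
  have hv₀M : v₀ ∈ M := ⟨hv₀L, fun i => by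
    have := hv₀ i
    simp only [hδ]
    split_ifs
    · linarith
    · linarith [min_le_left (v₀ i) (a i * exp (Φ v₀ - 1))]⟩
  have hpos : ∀ v ∈ M, ∀ i, a i ≠ 0 → 0 < v i := fun v hv i hi =>
    lt_of_lt_of_le (hδpos i hi) (hv.2 i)
  have hΦc : ContinuousOn Φ M := by
    refine continuousOn_finsetSum _ fun i _ => ?_
    by_cases hi : a i = 0
    · simp only [phi, hi, if_true]
      exact continuousOn_const
    · simp only [phi, hi, if_false]
      have hc : Continuous fun v : ι → ℝ => min (v i) (a i) / a i := by fun_prop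
      refine ContinuousOn.sub (ContinuousOn.add (hc.continuousOn.log fun v hv => ?_)
        continuousOn_const) hc.continuousOn
      have : 0 < a i := lt_of_le_of_ne (ha i) (Ne.symm hi)
      exact (div_pos (lt_min (hpos v hv i hi) this) this).ne'
  obtain ⟨v, hv, hmax⟩ := hMc.exists_isMaxOn ⟨v₀, hv₀M⟩ hΦc
  have hΦ0 : Φ v₀ ≤ Φ v := hmax hv₀M
  have hv2 : ∀ i, 2 * δ i ≤ v i := by
    intro i
    by_cases hi : a i = 0
    · simp only [hδ, hi, if_true, mul_zero]
      exact le_trans (hδ0 i) (hv.2 i)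
    have hai : 0 < a i := lt_of_le_of_ne (ha i) (Ne.symm hi)
    have h1 : Φ v ≤ phi (a i) (v i) := by
      simp only [Φ]
      rw [← add_sum_erase univ _ (mem_univ i)]
      linarith [sum_nonpos fun j (_ : j ∈ univ.erase i) => phi_nonpos (ha j) (hpos v hv j)]
    simp only [phi, hi, if_false] at h1
    have hmpos := div_pos (lt_min (hpos v hv i hi) hai) hai
    have h2 : exp (Φ v₀ - 1) ≤ min (v i) (a i) / a i := by
      rw [← exp_log hmpos, exp_le_exp]
      linarith
    rw [le_div_iff₀ hai] at h2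
    simp only [hδ, hi, if_false]
    linarith [min_le_right (v₀ i) (a i * exp (Φ v₀ - 1)), min_le_left (v i) (a i)]
  set d : ι → ℝ := fun i => dphi (a i) (v i) with hd
  have hd0 : ∀ i, 0 ≤ d i := fun i => by
    simp only [hd, dphi]
    split_ifs <;> simp
  -- first order condition
  have hfoc : ∀ l ∈ L, ∑ i, d i * (|l i| - v i) ≤ 0 := by
    intro l hl
    set m : ι → ℝ := fun i => |l i|
    have hm : m ∈ L := hL.solid l hl m fun i => by simp [m]
    set h : ℝ → ℝ := fun t => ∑ i, dphi (a i) ((1 - t) * v i + t * m i) * (m i - v i)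
    have hh : ∀ t : ℝ, 0 < t → t ≤ 1 / 2 → h t ≤ 0 := by
      intro t ht ht2
      have hge : ∀ i, δ i ≤ (1 - t) * v i + t * m i := fun i => by
        have h2 := mul_le_mul (show (1 / 2 : ℝ) ≤ 1 - t by linarith) (hv2 i)
          (by linarith [hδ0 i]) (by linarith)
        linarith [mul_nonneg ht.le (abs_nonneg (l i))]
      have hmem : (fun i => (1 - t) * v i + t * m i) ∈ M :=
        ⟨hL.convex hv.1 hm (by linarith) ht.le (by ring), hge⟩
      have h1 : Φ (fun i => (1 - t) * v i + t * m i) ≤ Φ v := hmax hmem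
      have h2 : Φ v ≤ Φ (fun i => (1 - t) * v i + t * m i) + -t * h t := by
        simp only [Φ, h, mul_sum, ← sum_add_distrib]
        refine sum_le_sum fun i _ => ?_
        refine (phi_tangent (w := v i) (ha i) (hpos _ hmem i) (hpos v hv i)).trans (le_of_eq ?_)
        ring
      by_contra hne
      have := mul_pos ht (not_le.1 hne)
      linarith
    have hcont : ContinuousAt h 0 := by
      refine tendsto_finsetSum _ fun i _ => ContinuousAt.mul ?_ continuousAt_const
      by_cases hi : a i = 0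
      · simp only [dphi, hi, if_true]
        exact continuousAt_const
      · simp only [dphi, hi, if_false]
        refine ContinuousAt.sup (ContinuousAt.sub (ContinuousAt.div continuousAt_const
          (by fun_prop) ?_) continuousAt_const) continuousAt_const
        simpa using (hpos v hv i hi).ne'
    have h0 : h 0 ≤ 0 :=
      le_of_tendsto (hcont.tendsto.mono_left nhdsWithin_le_nhds : Filter.Tendsto h (nhdsWithin 0
        (Set.Ioi 0)) (nhds (h 0))) (Filter.mem_of_superset
        (Ioc_mem_nhdsGT (show (0 : ℝ) < 1 / 2 by norm_num)) fun t ht => hh t ht.1 ht.2)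
    simpa [h] using h0
  have hv0 : ∀ i, 0 ≤ v i := fun i => le_trans (hδ0 i) (hv.2 i)
  refine ⟨v, hv.1, fun i => d i * v i, hv0, fun i => ⟨mul_nonneg (hd0 i) (hv0 i), ?_⟩,
    fun i hi => ?_, fun i hi => ?_, fun l hl => ?_⟩
  · simp only [hd, dphi]
    split_ifs with hi
    · simp
    · have := hpos v hv i hi
      have : 0 < a i := lt_of_le_of_ne (ha i) (Ne.symm hi)
      rw [max_mul_of_nonneg _ _ (hv0 i), sub_mul, one_div, inv_mul_cancel₀ (hpos v hv i hi).ne']
      exact max_le (sub_le_self _ (by positivity)) (by simp)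
  · have hd' : d i ≠ 0 := fun e => hi (by simp [e])
    simp only [hd, dphi] at hd'
    split_ifs at hd' with h0
    · exact absurd rfl hd'
    refine ⟨hpos v hv i h0, ?_⟩
    have h1 : 0 < 1 / v i - 1 / a i := lt_of_not_ge fun h => hd' (max_eq_right h)
    exact lt_of_one_div_lt_one_div (lt_of_le_of_ne (ha i) (Ne.symm h0)) (by linarith)
  · by_cases h0 : a i = 0
    · have : |x i| = 0 := by simpa [ha'] using h0
      rw [this]
      have := hv0 i
      positivity
    · have hvi := hpos v hv i h0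
      simp only [hd, dphi, h0, if_false] at hi
      rw [max_mul_of_nonneg _ _ (hv0 i), sub_mul, one_div, inv_mul_cancel₀ hvi.ne', max_le_iff] at hi
      have hai : 0 < a i := lt_of_le_of_ne (ha i) (Ne.symm h0)
      have h2 : 1 / 2 ≤ v i / a i := by
        have e : 1 / a i * v i = v i / a i := by ring
        linarith [hi.1]
      rw [le_div_iff₀ hai] at h2
      simp only [ha'] at h2
      linarith
  · have h := hfoc l hl
    simp only [mul_sub, sum_sub_distrib] at h
    refine le_trans (le_of_eq (sum_congr rfl fun i _ => ?_)) (sub_nonpos.1 h)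
    by_cases hvi : v i = 0
    · have : d i = 0 := by
        by_cases h0 : a i = 0
        · simp [hd, dphi, h0]
        · exact absurd hvi (hpos v hv i h0).ne'
      simp [this]
    · field_simp

/-- The uniform profile of a set of coordinates. -/
theorem exists_uniform_profile {L : Set (ι → ℝ)} (hL : IsLatticeBody L) (T : Finset ι) :
    ∃ v ∈ L, (∀ i, 0 ≤ v i) ∧ (∀ i ∈ T, 0 < v i) ∧
      ∀ l ∈ L, ∑ i ∈ T, |l i| / v i ≤ T.card := by
  classical
  obtain ⟨R, hR⟩ := hL.compact.isBounded.exists_norm_le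
  obtain ⟨v₀, hv₀L, hv₀⟩ := hL.exists_pos
  set Φ : (ι → ℝ) → ℝ := fun v => ∑ i ∈ T, log (v i)
  have hR0 : ∀ v ∈ L, ∀ i, |v i| ≤ R := fun v hv i => (norm_le_pi_norm v i).trans (hR v hv)
  set B := max R 1
  set δ : ℝ := min (exp (Φ v₀ - T.card * log B)) (Finset.fold min 1 v₀ univ) / 2 with hδdef
  have hfold : 0 < Finset.fold min 1 v₀ univ := by
    rw [Finset.lt_fold_min]
    exact ⟨one_pos, fun i _ => hv₀ i⟩
  have hfold' : ∀ i, Finset.fold min 1 v₀ univ ≤ v₀ i := fun i =>
    (Finset.le_fold_min _).1 le_rfl |>.2 i (mem_univ i)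
  have hδ : 0 < δ := by positivity
  set M : Set (ι → ℝ) := L ∩ {v | ∀ i, 0 ≤ v i ∧ (i ∈ T → δ ≤ v i)} with hM
  have hMc : IsCompact M := hL.compact.inter_right (by
    simp only [Set.ofPred_forall, Set.ofPred_and]
    refine isClosed_iInter fun i => (isClosed_le continuous_const (continuous_apply i)).inter ?_
    by_cases hi : i ∈ T
    · simpa [hi] using isClosed_le continuous_const (continuous_apply (A := fun _ : ι => ℝ) i)
    · simp [hi])
  have hv₀M : v₀ ∈ M := ⟨hv₀L, fun i => ⟨(hv₀ i).le, fun _ => by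
    linarith [hδdef, hfold' i, min_le_right (exp (Φ v₀ - T.card * log B))
      (Finset.fold min 1 v₀ univ)]⟩⟩
  have hΦc : ContinuousOn Φ M := continuousOn_finsetSum _ fun i hi =>
    (continuous_apply i).continuousOn.log fun v hv => (lt_of_lt_of_le hδ ((hv.2 i).2 hi)).ne'
  obtain ⟨v, hv, hmax⟩ := hMc.exists_isMaxOn ⟨v₀, hv₀M⟩ hΦc
  have hvpos : ∀ i ∈ T, 0 < v i := fun i hi => lt_of_lt_of_le hδ ((hv.2 i).2 hi)
  have hΦ0 : Φ v₀ ≤ Φ v := hmax hv₀M
  have hv2 : ∀ i ∈ T, 2 * δ ≤ v i := by
    intro i hi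
    have hlogB : 0 ≤ log B := log_nonneg (le_max_right _ _)
    have h1 : Φ v ≤ log (v i) + T.card * log B := by
      simp only [Φ]
      rw [← add_sum_erase T _ hi]
      refine add_le_add le_rfl ((sum_le_card_nsmul _ _ (log B) fun j hj => ?_).trans ?_)
      · refine log_le_log (hvpos j (mem_of_mem_erase hj)) ?_
        exact ((le_abs_self _).trans (hR0 v hv.1 j)).trans (le_max_left _ _)
      · rw [nsmul_eq_mul]
        exact mul_le_mul_of_nonneg_right (Nat.cast_le.2 (card_erase_le)) hlogB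
    have h2 : exp (Φ v₀ - T.card * log B) ≤ v i := by
      rw [← exp_log (hvpos i hi), exp_le_exp]
      linarith
    linarith [hδdef, min_le_left (exp (Φ v₀ - T.card * log B)) (Finset.fold min 1 v₀ univ)]
  refine ⟨v, hv.1, fun i => (hv.2 i).1, hvpos, fun l hl => ?_⟩
  set m : ι → ℝ := fun i => |l i|
  have hm : m ∈ L := hL.solid l hl m fun i => by simp [m]
  set h : ℝ → ℝ := fun t => ∑ i ∈ T, (m i - v i) / ((1 - t) * v i + t * m i)
  have hh : ∀ t : ℝ, 0 < t → t ≤ 1 / 2 → h t ≤ 0 := by
    intro t ht ht2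
    have hge : ∀ i ∈ T, δ ≤ (1 - t) * v i + t * m i := fun i hi => by
      have h2 := mul_le_mul (show (1 / 2 : ℝ) ≤ 1 - t by linarith) (hv2 i hi) (by linarith)
        (by linarith)
      linarith [mul_nonneg ht.le (abs_nonneg (l i))]
    have hmem : (fun i => (1 - t) * v i + t * m i) ∈ M :=
      ⟨hL.convex hv.1 hm (by linarith) ht.le (by ring), fun i =>
        ⟨add_nonneg (mul_nonneg (by linarith) (hv.2 i).1) (mul_nonneg ht.le (abs_nonneg _)),
          hge i⟩⟩
    have h1 : Φ (fun i => (1 - t) * v i + t * m i) ≤ Φ v := hmax hmem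
    have h2 : Φ v ≤ Φ (fun i => (1 - t) * v i + t * m i) + -t * h t := by
      simp only [Φ, h, mul_sum, ← sum_add_distrib]
      refine sum_le_sum fun i hi => ?_
      have hw : 0 < (1 - t) * v i + t * m i := lt_of_lt_of_le hδ (hge i hi)
      have h3 := log_le_sub_one_of_pos (div_pos (hvpos i hi) hw)
      rw [log_div (hvpos i hi).ne' hw.ne'] at h3
      have e : v i / ((1 - t) * v i + t * m i) - 1 =
          -t * ((m i - v i) / ((1 - t) * v i + t * m i)) := by
        rw [div_sub_one hw.ne', mul_div_assoc']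
        congr 1
        ring
      linarith
    by_contra hne
    have := mul_pos ht (not_le.1 hne)
    linarith
  have hcont : ContinuousAt h 0 := by
    refine tendsto_finsetSum _ fun i hi => ContinuousAt.div (by fun_prop) (by fun_prop) ?_
    simpa using (hvpos i hi).ne'
  have h0 : h 0 ≤ 0 :=
    le_of_tendsto (hcont.tendsto.mono_left nhdsWithin_le_nhds : Filter.Tendsto h (nhdsWithin 0
      (Set.Ioi 0)) (nhds (h 0))) (Filter.mem_of_superset
      (Ioc_mem_nhdsGT (show (0 : ℝ) < 1 / 2 by norm_num)) fun t ht => hh t ht.1 ht.2)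
  simp only [h, sub_zero, one_mul, zero_mul, add_zero] at h0
  have : ∑ i ∈ T, |l i| / v i - T.card ≤ 0 := by
    refine le_trans (le_of_eq ?_) h0
    rw [← nsmul_one, ← sum_const, ← sum_sub_distrib]
    refine sum_congr rfl fun i hi => ?_
    rw [div_sub_one (hvpos i hi).ne']
  linarith

end Vale.Agent.P126.Lattice
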